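import Vale.Agent.P271S61.Fin
import Vale.Agent.P271.Main.Hub

open CategoryTheory AlgebraicGeometry Vale.Agent.P271L

namespace Vale.Agent.Results.P271.AInvertibleSheaves

/-- **Fujita's freeness conjecture**, for invertible sheaves. Let `X` be a connected scheme, smooth
of relative dimension `n` and proper over `ℂ`, and let `L` be a line bundle on `X`. Then `K_X` and
all the `K_X + m L` are line bundles, and if `L` is ample then `K_X + m L` is globally generated
for all `m ≥ n + 1`. For `n ≥ 1` the least bound `m₀(n)` valid for all smooth connected projective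
varieties of dimension `n` is `n + 1`. -/
theorem result (n : ℕ) :
    (∀ (X : Scheme.{0}) (f : X ⟶ Spec (CommRingCat.of ℂ)) [SmoothOfRelativeDimension n f]
      [IsProper f] [ConnectedSpace X] (L : X.Modules), IsLineBundle L →
      IsLineBundle (canonical f n) ∧ (∀ m, IsLineBundle (tensor (canonical f n) (pow L m))) ∧
        (IsAmple L → ∀ m, n + 1 ≤ m →
          IsGloballyGenerated (tensor (canonical f n) (pow L m)))) ∧
    (1 ≤ n → IsLeast {m₀ : ℕ | IsBound n m₀} (n + 1)) :=
  ⟨fun X f _ _ _ L hL => main_of_hub Vale.Agent.P271.Main.hubFujita n X f L hL,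
    isLeast_of_hub Vale.Agent.P271.Main.hubFujita n⟩

end Vale.Agent.Results.P271.AInvertibleSheaves
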